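import Vale.Agent.P050.Local.Main

open MeasureTheory

namespace Vale.Agent.Results.P050.LocalMaxDeg

open Vale.Agent.P050.Local

theorem result {Ω : Type} [MeasurableSpace Ω] (μ : Measure Ω) [IsProbabilityMeasure μ]
    (W : Ω → Ω → ℝ) (hsymm : ∀ a b, W a b = W b a) (hmeas : Measurable (Function.uncurry W))
    (hone : ∫ a, ∫ b, W a b ∂μ ∂μ = 1) {V : Type} [Fintype V] [DecidableEq V]
    (G : SimpleGraph V) [DecidableRel G.Adj] (hG : G.Colorable 2) (Δ : ℕ)
    (hdeg : ∀ v, G.degree v ≤ Δ)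
    (hW : ∀ᵐ q ∂μ.prod μ, |W q.1 q.2 - 1| ≤ 1 / (250 * (Δ : ℝ))) :
    1 ≤ ∫ x, ∏ e ∈ G.edgeFinset,
      Sym2.lift ⟨fun a b => W (x a) (x b), fun a b => hsymm (x a) (x b)⟩ e
      ∂Measure.pi (fun _ : V => μ) := by
  obtain ⟨C⟩ := hG
  obtain ⟨h1, h2, h3⟩ := orient_spec G (fun v => decide (C v = 1)) fun a b hab h => by
    have := C.valid hab
    revert h this
    generalize C a = i, C b = j
    revert i j
    decide
  simp only [h3, Sym2.lift_mk]
  exact one_le_of_ae W hsymm hmeas hone h1 (fun v => (h2 v).trans (hdeg v)) hW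

end Vale.Agent.Results.P050.LocalMaxDeg
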