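import Mathlib
import Vale.Agent.P050.Main

/-!
# P050: Sidorenko's inequality against kernels with nonnegative minors and against rank two kernels
-/

namespace Vale.Agent.Results.P050.TP2Targets

open Finset Vale.Agent.P050

lemma ratio_of_dense {A B E X Y : Type} [Fintype A] [Fintype B] [Fintype E] [DecidableEq A]
    [DecidableEq B] [Fintype X] [Fintype Y] [Nonempty X] [Nonempty Y] (s : E → A) (t : E → B)
    (W : X → Y → ℝ) (h : Dense s t W) :
    ((∑ x, ∑ y, W x y) / ((Fintype.card X : ℝ) * Fintype.card Y)) ^ Fintype.card E ≤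
      (∑ f : A → X, ∑ g : B → Y, ∏ e, W (f (s e)) (g (t e))) /
        ((Fintype.card X : ℝ) ^ Fintype.card A * (Fintype.card Y : ℝ) ^ Fintype.card B) := by
  rw [div_pow, div_le_div_iff₀ (by positivity) (by positivity)]
  exact h

lemma graph_bound {U V : Type} [Fintype U] [DecidableEq U] [Fintype V] [DecidableEq V] [Nonempty V]
    (H : SimpleGraph U) [DecidableRel H.Adj] (hH : H.Colorable 2)
    (G : SimpleGraph V) [DecidableRel G.Adj] (r c : V → ℕ) (hr : Function.Injective r)
    (hc : Function.Injective c)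
    (htp : ∀ i i' j j' : V, r i ≤ r i' → c j ≤ c j' → G.Adj i j' → G.Adj i' j →
      G.Adj i j ∧ G.Adj i' j') :
    ((2 * G.edgeFinset.card : ℝ) / (Fintype.card V : ℝ) ^ 2) ^ H.edgeFinset.card ≤
      (Fintype.card {φ : U → V // ∀ x y, H.Adj x y → G.Adj (φ x) (φ y)} : ℝ) /
        (Fintype.card V : ℝ) ^ Fintype.card U := by
  classical
  obtain ⟨col⟩ := hH
  let ts : {p : U × U // H.Adj p.1 p.2 ∧ col p.1 = 0} → {x : U // col x = 0} :=
    fun p => ⟨p.1.1, p.2.2⟩
  let tt : {p : U × U // H.Adj p.1 p.2 ∧ col p.1 = 0} → {x : U // ¬ col x = 0} :=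
    fun p => ⟨p.1.2, fun h => col.valid p.2.1 (p.2.2.trans h.symm)⟩
  -- two finite orders on the vertices of the target
  let X := {n : ℕ // n ∈ univ.image r}
  let Y := {n : ℕ // n ∈ univ.image c}
  let eX : V ≃ X := Equiv.ofBijective (fun v => ⟨r v, by simp⟩)
    ⟨fun a b h => hr (congrArg Subtype.val h), fun n => by
      obtain ⟨v, _, hv⟩ := Finset.mem_image.1 n.2; exact ⟨v, Subtype.ext hv⟩⟩
  let eY : V ≃ Y := Equiv.ofBijective (fun v => ⟨c v, by simp⟩)
    ⟨fun a b h => hc (congrArg Subtype.val h), fun n => by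
      obtain ⟨v, _, hv⟩ := Finset.mem_image.1 n.2; exact ⟨v, Subtype.ext hv⟩⟩
  have hrX : ∀ x : X, r (eX.symm x) = (x : ℕ) := fun x =>
    congrArg Subtype.val (eX.apply_symm_apply x)
  have hcY : ∀ y : Y, c (eY.symm y) = (y : ℕ) := fun y =>
    congrArg Subtype.val (eY.apply_symm_apply y)
  let _ : Fintype X := inferInstanceAs (Fintype {n : ℕ // n ∈ univ.image r})
  let _ : Fintype Y := inferInstanceAs (Fintype {n : ℕ // n ∈ univ.image c})
  let _ : LinearOrder X := inferInstanceAs (LinearOrder {n : ℕ // n ∈ univ.image r})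
  let _ : LinearOrder Y := inferInstanceAs (LinearOrder {n : ℕ // n ∈ univ.image c})
  have : Nonempty X := ⟨eX (Classical.arbitrary V)⟩
  have : Nonempty Y := ⟨eY (Classical.arbitrary V)⟩
  set W : X → Y → ℝ := fun x y => if G.Adj (eX.symm x) (eY.symm y) then 1 else 0 with hW
  have hd : Dense ts tt W := by
    refine dense_tp2 ts tt W (fun x y => by simp only [hW]; split <;> norm_num) ?_
    intro x x' y y' hx hy
    simp only [hW]
    by_cases h1 : G.Adj (eX.symm x) (eY.symm y') ∧ G.Adj (eX.symm x') (eY.symm y)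
    · obtain ⟨g1, g2⟩ := htp _ _ _ _ (by rw [hrX, hrX]; exact hx) (by rw [hcY, hcY]; exact hy)
        h1.1 h1.2
      simp [h1.1, h1.2, g1, g2]
    · rcases not_and_or.1 h1 with h | h <;> simp [h] <;> (repeat' split) <;> norm_num
  have key := ratio_of_dense ts tt W hd
  rw [Fintype.card_congr eX.symm, Fintype.card_congr eY.symm] at key
  have hE : Fintype.card {p : U × U // H.Adj p.1 p.2 ∧ col p.1 = 0} = H.edgeFinset.card := by
    rw [← Fintype.card_coe]
    refine Fintype.card_congr (Equiv.ofBijective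
      (fun p => ⟨s(p.1.1, p.1.2), SimpleGraph.mem_edgeFinset.2 p.2.1⟩) ⟨?_, ?_⟩)
    · rintro ⟨⟨a, b⟩, hab, ha⟩ ⟨⟨a', b'⟩, hab', ha'⟩ h
      have h' := congrArg Subtype.val h
      simp only [Sym2.eq_iff] at h'
      rcases h' with ⟨h1, h2⟩ | ⟨h1, h2⟩
      · subst h1; subst h2; rfl
      · exact absurd (ha.trans ((congrArg col h2).symm ▸ ha'.symm)) (col.valid hab)
    · rintro ⟨e, he⟩
      induction e using Sym2.ind with
      | _ a b =>
        have hab : H.Adj a b := SimpleGraph.mem_edgeFinset.1 he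
        have hne := col.valid hab
        by_cases ha : col a = 0
        · exact ⟨⟨(a, b), hab, ha⟩, rfl⟩
        · have hb : col b = 0 := by
            have h1 := (col a).isLt
            have h2 := (col b).isLt
            have h3 : (col a : ℕ) ≠ col b := fun e => hne (Fin.ext e)
            have h4 : (col a : ℕ) ≠ 0 := fun e => ha (Fin.ext e)
            exact Fin.ext (by simp; omega)
          exact ⟨⟨(b, a), hab.symm, hb⟩, Subtype.ext Sym2.eq_swap⟩
  have hU : Fintype.card {x : U // col x = 0} + Fintype.card {x : U // ¬ col x = 0} =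
      Fintype.card U := by
    rw [← Fintype.card_sum]
    exact Fintype.card_congr (Equiv.sumCompl _)
  rw [hE, ← pow_add, hU] at key
  have hS : ∑ x, ∑ y, W x y = 2 * (G.edgeFinset.card : ℝ) := by
    have h1 : ∑ x, ∑ y, W x y = ∑ v : V, ∑ w : V, if G.Adj v w then (1 : ℝ) else 0 := by
      rw [← Equiv.sum_comp eX]
      refine Finset.sum_congr rfl fun v _ => ?_
      rw [← Equiv.sum_comp eY]
      simp [hW]
    rw [h1]
    have h2 : ∀ v : V, (∑ w : V, if G.Adj v w then (1 : ℝ) else 0) = (G.degree v : ℝ) := by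
      intro v
      rw [Finset.sum_boole]
      congr 1
      rw [← SimpleGraph.card_neighborFinset_eq_degree, SimpleGraph.neighborFinset_eq_filter]
    simp only [h2]
    exact_mod_cast G.sum_degrees_eq_twice_card_edges
  rw [hS, ← pow_two] at key
  refine key.trans (le_of_eq ?_)
  congr 1
  -- labellings of the two sides against maps of the whole vertex set
  have hw : ∀ (f : {x : U // col x = 0} → X) (g : {x : U // ¬ col x = 0} → Y), ∏ e, W (f (ts e)) (g (tt e)) =
      if ∀ e, G.Adj (eX.symm (f (ts e))) (eY.symm (g (tt e))) then (1 : ℝ) else 0 := by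
    intro f g
    simp only [hW]
    exact Fintype.prod_boole
  simp only [hw]
  rw [← Fintype.sum_prod_type', Finset.sum_boole, ← Fintype.card_subtype]
  congr 1
  let Ψ : ({x : U // col x = 0} → X) × ({x : U // ¬ col x = 0} → Y) ≃ (U → V) :=
    (Equiv.prodCongr ((Equiv.refl _).arrowCongr eX.symm) ((Equiv.refl _).arrowCongr eY.symm)).trans
      (Equiv.piEquivPiSubtypeProd (fun x => col x = 0) (fun _ => V)).symm
  refine Fintype.card_congr (Ψ.subtypeEquiv ?_)
  rintro ⟨f, g⟩
  have hΨ : ∀ x, Ψ (f, g) x =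
      if h : col x = 0 then eX.symm (f ⟨x, h⟩) else eY.symm (g ⟨x, h⟩) := by
    intro x
    simp [Ψ, Equiv.piEquivPiSubtypeProd]
  constructor
  · intro h x y hxy
    by_cases hx : col x = 0
    · have hy : ¬ col y = 0 := fun hy => col.valid hxy (hx.trans hy.symm)
      have := h ⟨(x, y), hxy, hx⟩
      rw [hΨ, hΨ, dif_pos hx, dif_neg hy]
      exact this
    · have hy : col y = 0 := by
        have h1 := (col x).isLt
        have h2 := (col y).isLt
        have h3 : (col x : ℕ) ≠ col y := fun e => col.valid hxy (Fin.ext e)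
        have h4 : (col x : ℕ) ≠ 0 := fun e => hx (Fin.ext e)
        exact Fin.ext (by simp; omega)
      have := h ⟨(y, x), hxy.symm, hy⟩
      rw [hΨ, hΨ, dif_neg hx, dif_pos hy]
      exact G.symm.symm _ _ this
  · intro h e
    have hy : ¬ col e.1.2 = 0 := (tt e).2
    have := h e.1.1 e.1.2 e.2.1
    rw [hΨ, hΨ, dif_pos e.2.2, dif_neg hy] at this
    exact this

/-- Sidorenko's inequality holds for every bipartite graph against every target kernel with
nonnegative minors, every target kernel of rank at most two, and every target graph whose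
adjacency matrix has nonnegative minors after reordering rows and columns. -/
theorem result :
    (∀ (A B E X Y : Type) [Fintype A] [Fintype B] [Fintype E] [DecidableEq A] [DecidableEq B]
      [Fintype X] [Fintype Y] [LinearOrder X] [LinearOrder Y] [Nonempty X] [Nonempty Y]
      (s : E → A) (t : E → B) (W : X → Y → ℝ), (∀ x y, 0 ≤ W x y) →
      (∀ x x' : X, ∀ y y' : Y, x ≤ x' → y ≤ y' → W x y' * W x' y ≤ W x y * W x' y') →
      ((∑ x, ∑ y, W x y) / ((Fintype.card X : ℝ) * Fintype.card Y)) ^ Fintype.card E ≤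
        (∑ f : A → X, ∑ g : B → Y, ∏ e, W (f (s e)) (g (t e))) /
          ((Fintype.card X : ℝ) ^ Fintype.card A * (Fintype.card Y : ℝ) ^ Fintype.card B)) ∧
    (∀ (A B E X Y : Type) [Fintype A] [Fintype B] [Fintype E] [DecidableEq A] [DecidableEq B]
      [Fintype X] [Fintype Y] [Nonempty X] [Nonempty Y]
      (s : E → A) (t : E → B) (u v : X → ℝ) (a b : Y → ℝ),
      (∀ x y, 0 ≤ u x * a y + v x * b y) →
      ((∑ x, ∑ y, (u x * a y + v x * b y)) / ((Fintype.card X : ℝ) * Fintype.card Y)) ^
          Fintype.card E ≤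
        (∑ f : A → X, ∑ g : B → Y,
            ∏ e, (u (f (s e)) * a (g (t e)) + v (f (s e)) * b (g (t e)))) /
          ((Fintype.card X : ℝ) ^ Fintype.card A * (Fintype.card Y : ℝ) ^ Fintype.card B)) ∧
    (∀ (U V : Type) [Fintype U] [DecidableEq U] [Fintype V] [DecidableEq V] [Nonempty V]
      (H : SimpleGraph U) [DecidableRel H.Adj], H.Colorable 2 →
      ∀ (G : SimpleGraph V) [DecidableRel G.Adj] (r c : V → ℕ),
      Function.Injective r → Function.Injective c →
      (∀ i i' j j' : V, r i ≤ r i' → c j ≤ c j' → G.Adj i j' → G.Adj i' j →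
        G.Adj i j ∧ G.Adj i' j') →
      ((2 * G.edgeFinset.card : ℝ) / (Fintype.card V : ℝ) ^ 2) ^ H.edgeFinset.card ≤
        (Fintype.card {φ : U → V // ∀ x y, H.Adj x y → G.Adj (φ x) (φ y)} : ℝ) /
          (Fintype.card V : ℝ) ^ Fintype.card U) := by
  refine ⟨?_, ?_, ?_⟩
  · intro A B E X Y _ _ _ _ _ _ _ _ _ _ _ s t W hW h
    exact ratio_of_dense s t W (dense_tp2 s t W hW fun x x' y y' hx hy => h x x' y y' hx hy)
  · intro A B E X Y _ _ _ _ _ _ _ _ _ s t u v a b hW
    exact ratio_of_dense s t _ (dense_rank_two s t u v a b hW)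
  · intro U V _ _ _ _ _ H _ hH G _ r c hr hc htp
    exact graph_bound H hH G r c hr hc htp

end Vale.Agent.Results.P050.TP2Targets
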